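import Mathlib
import Vale.Agent.Lib.P302.helper14.MultiQ

/-!
# P302: a layered triple search on bit masks

A verified refutation search for triple partitions, designed to be cheap for kernel evaluation.
The items are given as rows (a bit position and a size), listed by non-increasing size; a state
of the search is a natural number whose bits tell which rows are still present.  One step removes
the present row with the lowest bit together with two further rows `b`, `c` such that the three
sizes add up to at most `L`, where

* `c` is the largest row that fits with the first two (exchange argument),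
* `b` is not larger than `c`,
* among several `b` with the same `c` only the largest is used (domination),
* the state after the step is dropped if its total size exceeds the room of the triples that
  remain.

`reachF_sound` says that a successful run refutes a triple partition of the start state.
-/

namespace Vale.Agent.Lib.P302.helper8

open Vale.Agent.Lib.P302.helper14

/-- A row: an item with its bit position and its size. -/
structure Row where
  /-- bit position -/
  pos : ℕ
  /-- size -/
  sz : ℕ

/-- Bit test. -/
def tb (m i : ℕ) : Bool := Nat.beq (Nat.land (Nat.shiftRight m i) 1) 1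

theorem tb_eq (m i : ℕ) : tb m i = Nat.testBit m i := by
  unfold tb
  have h1 : Nat.land (Nat.shiftRight m i) 1 = (m >>> i) % 2 := Nat.and_one_is_mod _
  rw [h1, Nat.testBit, Nat.one_and_eq_mod_two]
  have h2 : (m >>> i) % 2 < 2 := Nat.mod_lt _ (by norm_num)
  generalize (m >>> i) % 2 = k at h2
  interval_cases k <;> rfl

/-- The rows present in the mask `m`. -/
def sel (rows : List Row) (m : ℕ) : List Row := rows.filter fun r => tb m r.pos

/-- The multiset of sizes of a list of rows. -/
def szs (F : List Row) : Multiset ℕ := ((F.map Row.sz : List ℕ) : Multiset ℕ)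

/-- The total size of a list of rows. -/
def sumSz : List Row → ℕ
  | [] => 0
  | r :: rest => Nat.add r.sz (sumSz rest)

theorem sumSz_eq : ∀ F : List Row, sumSz F = (szs F).sum
  | [] => rfl
  | r :: rest => by
    unfold sumSz
    rw [sumSz_eq rest]
    simp [szs]

theorem card_szs (F : List Row) : Multiset.card (szs F) = F.length := by
  simp [szs]

/-- Removing a present bit removes exactly the rows at that position. -/
theorem sel_xor (rows : List Row) (m p : ℕ) (h : Nat.testBit m p = true) :
    sel rows (Nat.xor m (Nat.pow 2 p)) = (sel rows m).filter (fun q => !(Nat.beq q.pos p)) := by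
  unfold sel
  rw [List.filter_filter]
  apply List.filter_congr
  intro q _
  rw [tb_eq, tb_eq]
  have e : Nat.xor m (Nat.pow 2 p) = m ^^^ 2 ^ p := rfl
  rw [e, Nat.testBit_xor, Nat.testBit_two_pow]
  by_cases hq : q.pos = p
  · subst hq
    simp [h]
  · have h1 : Nat.beq q.pos p = false := by
      cases hb : Nat.beq q.pos p
      · rfl
      · exact absurd (Nat.eq_of_beq_eq_true hb) hq
    have h2 : decide (p = q.pos) = false := by
      simp
      exact fun h => hq h.symm
    rw [h1, h2]
    simp

/-- Splitting off a row of a list with distinct positions. -/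
theorem szs_filter_ne : ∀ {F : List Row}, (F.map Row.pos).Nodup → ∀ {r : Row}, r ∈ F →
    szs F = r.sz ::ₘ szs (F.filter (fun q => !(Nat.beq q.pos r.pos)))
  | [], _, r, hr => by simp at hr
  | a :: F, hnd, r, hr => by
    rw [List.map_cons, List.nodup_cons] at hnd
    obtain ⟨ha, hnd'⟩ := hnd
    rcases List.mem_cons.mp hr with rfl | hr'
    · have h1 : (Nat.beq r.pos r.pos) = true := Nat.beq_refl _
      have h2 : F.filter (fun q => !(Nat.beq q.pos r.pos)) = F := by
        apply List.filter_eq_self.mpr
        intro q hq
        cases hb : Nat.beq q.pos r.pos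
        · rfl
        · exfalso
          apply ha
          rw [← Nat.eq_of_beq_eq_true hb]
          exact List.mem_map_of_mem hq
      rw [List.filter_cons, h1]
      simp only [Bool.not_true, Bool.false_eq_true, if_false]
      rw [h2]
      simp [szs]
    · have hne : Nat.beq a.pos r.pos = false := by
        cases hb : Nat.beq a.pos r.pos
        · rfl
        · exfalso
          apply ha
          rw [Nat.eq_of_beq_eq_true hb]
          exact List.mem_map_of_mem hr'
      rw [List.filter_cons, hne]
      simp only [Bool.not_false, if_true]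
      have ih := szs_filter_ne hnd' hr'
      have e1 : szs (a :: F) = a.sz ::ₘ szs F := by simp [szs]
      have e2 : szs (a :: F.filter (fun q => !(Nat.beq q.pos r.pos)))
          = a.sz ::ₘ szs (F.filter (fun q => !(Nat.beq q.pos r.pos))) := by simp [szs]
      rw [e1, e2, ih, Multiset.cons_swap]

theorem nodup_filter {F : List Row} (hnd : (F.map Row.pos).Nodup) (p : Row → Bool) :
    ((F.filter p).map Row.pos).Nodup :=
  hnd.sublist (List.filter_sublist.map Row.pos)

theorem eq_of_pos_eq : ∀ {F : List Row}, (F.map Row.pos).Nodup → ∀ {a b : Row}, a ∈ F → b ∈ F →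
    a.pos = b.pos → a = b
  | [], _, a, _, ha, _, _ => by simp at ha
  | r :: F, hnd, a, b, ha, hb, hab => by
    rw [List.map_cons, List.nodup_cons] at hnd
    obtain ⟨hr, hnd'⟩ := hnd
    rcases List.mem_cons.mp ha with rfl | ha'
    · rcases List.mem_cons.mp hb with rfl | hb'
      · rfl
      · exfalso
        apply hr
        rw [hab]
        exact List.mem_map_of_mem hb'
    · rcases List.mem_cons.mp hb with rfl | hb'
      · exfalso
        apply hr
        rw [← hab]
        exact List.mem_map_of_mem ha'
      · exact eq_of_pos_eq hnd' ha' hb' hab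

/-- A triple partition has total size at most the room of its triples. -/
theorem tri_sum {L : ℕ} {M : Multiset ℕ} (h : TriPart L M) :
    3 * M.sum ≤ Multiset.card M * L := by
  obtain ⟨T, hT, rfl⟩ := h
  induction T using Multiset.induction_on with
  | empty => simp
  | cons τ T ih =>
    have hτ := hT τ (Multiset.mem_cons_self _ _)
    have ih' := ih (fun σ hσ => hT σ (Multiset.mem_cons_of_mem hσ))
    rw [Multiset.sum_cons, Multiset.sum_add, Multiset.card_add, hτ.1]
    have := hτ.2
    nlinarith

/-- The rows of `F` at positions other than `p`. -/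
def rmv (F : List Row) (p : ℕ) : List Row := F.filter (fun q => !(Nat.beq q.pos p))

theorem szs_rmv {F : List Row} (hnd : (F.map Row.pos).Nodup) {r : Row} (hr : r ∈ F) :
    szs F = r.sz ::ₘ szs (rmv F r.pos) := szs_filter_ne hnd hr

theorem mem_rmv {F : List Row} {p : ℕ} {q : Row} : q ∈ rmv F p ↔ q ∈ F ∧ q.pos ≠ p := by
  unfold rmv
  rw [List.mem_filter]
  constructor
  · rintro ⟨h1, h2⟩
    refine ⟨h1, fun h => ?_⟩
    rw [h, Nat.beq_refl] at h2
    simp at h2
  · rintro ⟨h1, h2⟩
    refine ⟨h1, ?_⟩
    cases hb : Nat.beq q.pos p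
    · rfl
    · exact absurd (Nat.eq_of_beq_eq_true hb) h2

theorem rmv_comm (F : List Row) (p q : ℕ) : rmv (rmv F p) q = rmv (rmv F q) p := by
  unfold rmv
  rw [List.filter_filter, List.filter_filter]
  apply List.filter_congr
  intro a _
  exact Bool.and_comm _ _

theorem nodup_rmv {F : List Row} (hnd : (F.map Row.pos).Nodup) (p : ℕ) :
    ((rmv F p).map Row.pos).Nodup := nodup_filter hnd _

theorem sorted_rmv {F : List Row} (hs : F.Pairwise (fun a b => b.sz ≤ a.sz)) (p : ℕ) :
    (rmv F p).Pairwise (fun a b => b.sz ≤ a.sz) := hs.sublist List.filter_sublist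

theorem sel_xor' (rows : List Row) (m p : ℕ) (h : Nat.testBit m p = true) :
    sel rows (Nat.xor m (Nat.pow 2 p)) = rmv (sel rows m) p := sel_xor rows m p h

theorem mem_sel_tb {rows : List Row} {m : ℕ} {r : Row} (h : r ∈ sel rows m) :
    Nat.testBit m r.pos = true := by
  unfold sel at h
  have := (List.mem_filter.mp h).2
  rw [tb_eq] at this
  exact this

/-- In a triple partition of the sizes of `F`, the row `X` sits in a triple with two other
rows. -/
theorem tri_rows {L : ℕ} {F : List Row} (hnd : (F.map Row.pos).Nodup) {X : Row} (hX : X ∈ F)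
    (hT : TriPart L (szs F)) :
    ∃ b c : Row, b ∈ rmv F X.pos ∧ c ∈ rmv F X.pos ∧ c.pos ≠ b.pos ∧ X.sz + b.sz + c.sz ≤ L ∧
      TriPart L (szs (rmv (rmv (rmv F X.pos) b.pos) c.pos)) := by
  have e1 := szs_rmv hnd hX
  have hx : X.sz ∈ szs F := by
    rw [e1]
    exact Multiset.mem_cons_self _ _
  obtain ⟨b, c, M', hM, hfit, hT'⟩ := TriPart.step hT hx
  rw [e1] at hM
  have hM1 : szs (rmv F X.pos) = b ::ₘ c ::ₘ M' := (Multiset.cons_inj_right _).mp hM
  have hb : b ∈ szs (rmv F X.pos) := by
    rw [hM1]
    exact Multiset.mem_cons_self _ _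
  obtain ⟨B, hB, rfl⟩ : ∃ B ∈ rmv F X.pos, B.sz = b := by
    unfold szs at hb
    rw [Multiset.mem_coe] at hb
    exact List.mem_map.mp hb
  have hnd1 := nodup_rmv hnd X.pos
  have e2 := szs_rmv hnd1 hB
  rw [e2] at hM1
  have hM2 : szs (rmv (rmv F X.pos) B.pos) = c ::ₘ M' := (Multiset.cons_inj_right _).mp hM1
  have hc : c ∈ szs (rmv (rmv F X.pos) B.pos) := by
    rw [hM2]
    exact Multiset.mem_cons_self _ _
  obtain ⟨C, hC, rfl⟩ : ∃ C ∈ rmv (rmv F X.pos) B.pos, C.sz = c := by
    unfold szs at hc
    rw [Multiset.mem_coe] at hc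
    exact List.mem_map.mp hc
  have hnd2 := nodup_rmv hnd1 B.pos
  have e3 := szs_rmv hnd2 hC
  rw [e3] at hM2
  have hM3 : szs (rmv (rmv (rmv F X.pos) B.pos) C.pos) = M' := (Multiset.cons_inj_right _).mp hM2
  have hC' := mem_rmv.mp hC
  refine ⟨B, C, hB, hC'.1, hC'.2, hfit, ?_⟩
  rw [hM3]
  exact hT'

/-- Removing a larger row instead of a smaller one keeps a triple partition. -/
theorem tri_swap {L : ℕ} {H : List Row} (hnd : (H.map Row.pos).Nodup) {u v : Row} (hu : u ∈ H)
    (hv : v ∈ H) (hvu : v.sz ≤ u.sz) (hT : TriPart L (szs (rmv H v.pos))) :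
    TriPart L (szs (rmv H u.pos)) := by
  by_cases hp : u.pos = v.pos
  · rw [hp]
    exact hT
  · have hu' : u ∈ rmv H v.pos := mem_rmv.mpr ⟨hu, hp⟩
    have hv' : v ∈ rmv H u.pos := mem_rmv.mpr ⟨hv, fun h => hp h.symm⟩
    have e1 := szs_rmv (nodup_rmv hnd v.pos) hu'
    have e2 := szs_rmv (nodup_rmv hnd u.pos) hv'
    rw [e1] at hT
    have h3 := TriPart.mono hT hvu
    rw [e2, rmv_comm H u.pos v.pos]
    exact h3

/-- Drop the leading rows that do not fit with the sum `s`. -/
def dropBig (L s : ℕ) : List Row → List Row
  | [] => []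
  | r :: rest =>
    match Nat.ble (Nat.add s r.sz) L with
    | true => r :: rest
    | false => dropBig L s rest

theorem dropBig_spec (L s : ℕ) : ∀ p : List Row,
    ∃ d, p = d ++ dropBig L s p ∧ (∀ r ∈ d, L < s + r.sz) ∧
      (∀ r rest, dropBig L s p = r :: rest → s + r.sz ≤ L)
  | [] => ⟨[], by simp [dropBig], by simp, by simp [dropBig]⟩
  | r :: rest => by
    cases hb : Nat.ble (Nat.add s r.sz) L
    · obtain ⟨d, hd1, hd2, hd3⟩ := dropBig_spec L s rest
      have e : dropBig L s (r :: rest) = dropBig L s rest := by
        simp only [dropBig, hb]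
      rw [e]
      refine ⟨r :: d, ?_, ?_, hd3⟩
      · rw [List.cons_append, ← hd1]
      · intro r' hr'
        rcases List.mem_cons.mp hr' with rfl | hr'
        · by_contra hcon
          have : Nat.ble (Nat.add s r'.sz) L = true := Nat.ble_eq_true_of_le (by
            show s + r'.sz ≤ L
            omega)
          rw [this] at hb
          exact Bool.noConfusion hb
        · exact hd2 r' hr'
    · have e : dropBig L s (r :: rest) = r :: rest := by
        simp only [dropBig, hb]
      rw [e]
      refine ⟨[], rfl, by simp, ?_⟩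
      intro r' rest' h
      have h1 : r = r' := (List.cons.inj h).1
      rw [← h1]
      exact Nat.le_of_ble_eq_true hb

/-- The first row at a position other than `bp`. -/
def pick (bp : ℕ) : List Row → Option Row
  | [] => none
  | r :: rest =>
    match Nat.beq r.pos bp with
    | true => pick bp rest
    | false => some r

theorem pick_some (bp : ℕ) : ∀ (l : List Row) (c : Row), pick bp l = some c →
    ∃ d rest, l = d ++ c :: rest ∧ (∀ r ∈ d, r.pos = bp) ∧ c.pos ≠ bp
  | [], c, h => by simp [pick] at h
  | r :: rest, c, h => by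
    cases hb : Nat.beq r.pos bp
    · have e : pick bp (r :: rest) = some r := by
        simp only [pick, hb]
      rw [e] at h
      have h1 : r = c := Option.some.inj h
      subst h1
      refine ⟨[], rest, rfl, by simp, ?_⟩
      intro hcon
      rw [hcon, Nat.beq_refl] at hb
      exact Bool.noConfusion hb
    · have e : pick bp (r :: rest) = pick bp rest := by
        simp only [pick, hb]
      rw [e] at h
      obtain ⟨d, rest', h1, h2, h3⟩ := pick_some bp rest c h
      refine ⟨r :: d, rest', by rw [h1, List.cons_append], ?_, h3⟩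
      intro r' hr'
      rcases List.mem_cons.mp hr' with rfl | hr'
      · exact Nat.eq_of_beq_eq_true hb
      · exact h2 r' hr'

theorem pick_none (bp : ℕ) : ∀ (l : List Row), pick bp l = none → ∀ r ∈ l, r.pos = bp
  | [], _, r, hr => by simp at hr
  | a :: rest, h, r, hr => by
    cases hb : Nat.beq a.pos bp
    · have e : pick bp (a :: rest) = some a := by
        simp only [pick, hb]
      rw [e] at h
      simp at h
    · have e : pick bp (a :: rest) = pick bp rest := by
        simp only [pick, hb]
      rw [e] at h
      rcases List.mem_cons.mp hr with rfl | hr'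
      · exact Nat.eq_of_beq_eq_true hb
      · exact pick_none bp rest h r hr'

/-- Candidate pairs: the list `bs` runs through the rows by non-decreasing size, `p` is the part
of the rows (by non-increasing size) that may still fit. For each `b` the pair `(b, c)` with `c`
the first row of `p` that fits and sits at another position is produced, if `b` is not larger
than `c`. -/
def cands (L x : ℕ) : List Row → List Row → List (Row × Row)
  | [], _ => []
  | b :: bs, p =>
    match dropBig L (Nat.add x b.sz) p with
    | [] => []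
    | r :: rest =>
      match pick b.pos (r :: rest) with
      | none => cands L x bs (r :: rest)
      | some c =>
        match Nat.ble b.sz c.sz with
        | true => (b, c) :: cands L x bs (r :: rest)
        | false => cands L x bs (r :: rest)

theorem cands_mem (L x : ℕ) : ∀ (bs p : List Row) (e : Row × Row), e ∈ cands L x bs p →
    e.1 ∈ bs ∧ e.2 ∈ p ∧ e.2.pos ≠ e.1.pos
  | [], p, e, h => by simp [cands] at h
  | b :: bs, p, e, h => by
    obtain ⟨d, hd1, -, -⟩ := dropBig_spec L (Nat.add x b.sz) p
    have hsub : ∀ q ∈ dropBig L (Nat.add x b.sz) p, q ∈ p := by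
      intro q hq
      rw [hd1]
      exact List.mem_append_right _ hq
    cases hdb : dropBig L (Nat.add x b.sz) p with
    | nil =>
      simp only [cands, hdb] at h
      simp at h
    | cons r rest =>
      rw [hdb] at hsub
      have ih : ∀ e, e ∈ cands L x bs (r :: rest) → e.1 ∈ b :: bs ∧ e.2 ∈ p ∧ e.2.pos ≠ e.1.pos := by
        intro e he
        obtain ⟨h1, h2, h3⟩ := cands_mem L x bs (r :: rest) e he
        exact ⟨List.mem_cons_of_mem _ h1, hsub _ h2, h3⟩
      cases hpk : pick b.pos (r :: rest) with
      | none =>
        simp only [cands, hdb, hpk] at h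
        exact ih e h
      | some c =>
        cases hle : Nat.ble b.sz c.sz
        · simp only [cands, hdb, hpk, hle] at h
          exact ih e h
        · simp only [cands, hdb, hpk, hle] at h
          rcases List.mem_cons.mp h with rfl | h
          · obtain ⟨d', rest', h1, -, h3⟩ := pick_some b.pos (r :: rest) c hpk
            refine ⟨List.mem_cons_self, hsub _ ?_, h3⟩
            rw [h1]
            exact List.mem_append_right _ List.mem_cons_self
          · exact ih e h

theorem cands_sub (L x : ℕ) : ∀ (bs p : List Row),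
    ((cands L x bs p).map Prod.fst).Sublist bs
  | [], p => by simp [cands]
  | b :: bs, p => by
    cases hdb : dropBig L (Nat.add x b.sz) p with
    | nil =>
      simp only [cands, hdb]
      simp
    | cons r rest =>
      have ih := cands_sub L x bs (r :: rest)
      cases hpk : pick b.pos (r :: rest) with
      | none =>
        simp only [cands, hdb, hpk]
        exact List.Sublist.cons _ ih
      | some c =>
        cases hle : Nat.ble b.sz c.sz
        · simp only [cands, hdb, hpk, hle]
          exact List.Sublist.cons _ ih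
        · simp only [cands, hdb, hpk, hle]
          rw [List.map_cons]
          exact List.Sublist.cons_cons _ ih

/-- Completeness of the candidate pairs: if `b` (from `bs`) fits with some row `c` at another
position that is not smaller than `b`, then a pair `(b, c')` is produced with `c'` not smaller
than `c`. -/
theorem cands_spec (L x : ℕ) : ∀ (bs p pre : List Row),
    bs.Pairwise (fun a b => a.sz ≤ b.sz) →
    (∀ r ∈ pre, ∀ b ∈ bs, L < x + b.sz + r.sz) →
    p.Pairwise (fun a b => b.sz ≤ a.sz) →
    ∀ b ∈ bs, ∀ c ∈ pre ++ p, c.pos ≠ b.pos → x + b.sz + c.sz ≤ L → b.sz ≤ c.sz →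
      ∃ c', (b, c') ∈ cands L x bs p ∧ c' ∈ p ∧ c'.pos ≠ b.pos ∧ c.sz ≤ c'.sz
  | [], p, pre, _, _, _, b, hb, _, _, _, _, _ => by simp at hb
  | b0 :: bs, p, pre, hsb, hpre, hp, b, hb, c, hc, hcb, hfit, hbc => by
    obtain ⟨d, hd1, hd2, hd3⟩ := dropBig_spec L (Nat.add x b0.sz) p
    rw [List.pairwise_cons] at hsb
    obtain ⟨hb0, hsb'⟩ := hsb
    have hd2' : ∀ r ∈ d, L < x + b0.sz + r.sz := hd2
    -- the rows of `pre ++ d` fit with no row of `bs`
    have hpre' : ∀ r ∈ pre ++ d, ∀ b' ∈ bs, L < x + b'.sz + r.sz := by
      intro r hr b' hb'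
      rcases List.mem_append.mp hr with h | h
      · exact hpre r h b' (List.mem_cons_of_mem _ hb')
      · have h1 := hd2' r h
        have h2 := hb0 b' hb'
        omega
    have hsuf : (dropBig L (Nat.add x b0.sz) p).Pairwise (fun a b => b.sz ≤ a.sz) := by
      rw [hd1] at hp
      exact (List.pairwise_append.mp hp).2.1
    have hsub : ∀ q ∈ dropBig L (Nat.add x b0.sz) p, q ∈ p := by
      intro q hq
      rw [hd1]
      exact List.mem_append_right _ hq
    have hc' : c ∈ (pre ++ d) ++ dropBig L (Nat.add x b0.sz) p := by
      rw [List.append_assoc, ← hd1]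
      exact hc
    cases hdb : dropBig L (Nat.add x b0.sz) p with
    | nil =>
      exfalso
      rw [hdb, List.append_nil] at hc'
      rcases List.mem_cons.mp hb with rfl | hb'
      · rcases List.mem_append.mp hc' with h | h
        · have := hpre c h b List.mem_cons_self
          omega
        · have := hd2' c h
          omega
      · have := hpre' c hc' b hb'
        omega
    | cons r rest =>
      rw [hdb] at hsuf hsub hc'
      have hr : x + b0.sz + r.sz ≤ L := hd3 r rest hdb
      have ih : b ∈ bs → ∃ c', (b, c') ∈ cands L x bs (r :: rest) ∧ c' ∈ p ∧ c'.pos ≠ b.pos ∧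
          c.sz ≤ c'.sz := by
        intro hb'
        obtain ⟨c', h1, h2, h3, h4⟩ := cands_spec L x bs (r :: rest) (pre ++ d) hsb' hpre' hsuf
          b hb' c hc' hcb hfit hbc
        exact ⟨c', h1, hsub _ h2, h3, h4⟩
      rcases List.mem_cons.mp hb with rfl | hb'
      · -- the case `b = b0`
        have hcr : c ∈ r :: rest := by
          rcases List.mem_append.mp hc' with h | h
          · exfalso
            rcases List.mem_append.mp h with h | h
            · have := hpre c h b List.mem_cons_self
              omega
            · have := hd2' c h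
              omega
          · exact h
        cases hpk : pick b.pos (r :: rest) with
        | none =>
          exfalso
          exact hcb (pick_none b.pos (r :: rest) hpk c hcr)
        | some c' =>
          obtain ⟨d', rest', h1, h2, h3⟩ := pick_some b.pos (r :: rest) c' hpk
          have hc'mem : c' ∈ r :: rest := by
            rw [h1]
            exact List.mem_append_right _ List.mem_cons_self
          have hcc' : c.sz ≤ c'.sz := by
            rw [h1] at hcr hsuf
            rcases List.mem_append.mp hcr with h | h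
            · exact absurd (h2 c h) hcb
            · rcases List.mem_cons.mp h with rfl | h
              · exact le_refl _
              · exact List.rel_of_pairwise_cons (List.pairwise_append.mp hsuf).2.1 h
          have hle : Nat.ble b.sz c'.sz = true := Nat.ble_eq_true_of_le (by omega)
          refine ⟨c', ?_, hsub _ hc'mem, h3, hcc'⟩
          simp only [cands, hdb, hpk, hle]
          exact List.mem_cons_self
      · obtain ⟨c', h1, h2, h3, h4⟩ := ih hb'
        refine ⟨c', ?_, h2, h3, h4⟩
        cases hpk : pick b0.pos (r :: rest) with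
        | none =>
          simp only [cands, hdb, hpk]
          exact h1
        | some c0 =>
          cases hle : Nat.ble b0.sz c0.sz
          · simp only [cands, hdb, hpk, hle]
            exact h1
          · simp only [cands, hdb, hpk, hle]
            exact List.mem_cons_of_mem _ h1

/-- Domination: of consecutive pairs with the same second row only the last is kept. -/
def domF : List (Row × Row) → List (Row × Row)
  | [] => []
  | e :: rest =>
    match rest with
    | [] => [e]
    | e' :: _ =>
      match Nat.beq e.2.pos e'.2.pos with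
      | true => domF rest
      | false => e :: domF rest

theorem domF_sub : ∀ (l : List (Row × Row)) (e : Row × Row), e ∈ domF l → e ∈ l
  | [], e, h => by simp [domF] at h
  | [e0], e, h => by
    simp only [domF] at h
    exact h
  | e0 :: e1 :: rest, e, h => by
    cases hb : Nat.beq e0.2.pos e1.2.pos
    · simp only [domF, hb] at h
      rcases List.mem_cons.mp h with rfl | h
      · exact List.mem_cons_self
      · exact List.mem_cons_of_mem _ (domF_sub (e1 :: rest) e h)
    · simp only [domF, hb] at h
      exact List.mem_cons_of_mem _ (domF_sub (e1 :: rest) e h)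

theorem domF_spec : ∀ (l : List (Row × Row)), (l.map Prod.fst).Pairwise (fun a b => a.sz ≤ b.sz) →
    ∀ e ∈ l, ∃ e' ∈ domF l, e'.2.pos = e.2.pos ∧ e.1.sz ≤ e'.1.sz
  | [], _, e, he => by simp at he
  | [e0], _, e, he => by
    refine ⟨e0, by simp [domF], ?_⟩
    rcases List.mem_cons.mp he with rfl | he
    · exact ⟨rfl, le_refl _⟩
    · simp at he
  | e0 :: e1 :: rest, hpw, e, he => by
    rw [List.map_cons, List.pairwise_cons] at hpw
    obtain ⟨h0, hpw'⟩ := hpw
    have ih := domF_spec (e1 :: rest) hpw'
    have h01 : e0.1.sz ≤ e1.1.sz := h0 e1.1 (by simp)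
    cases hb : Nat.beq e0.2.pos e1.2.pos
    · have e : domF (e0 :: e1 :: rest) = e0 :: domF (e1 :: rest) := by
        simp only [domF, hb]
      rw [e]
      rcases List.mem_cons.mp he with rfl | he
      · exact ⟨_, List.mem_cons_self, rfl, le_refl _⟩
      · obtain ⟨e', h1, h2, h3⟩ := ih _ he
        exact ⟨e', List.mem_cons_of_mem _ h1, h2, h3⟩
    · have e : domF (e0 :: e1 :: rest) = domF (e1 :: rest) := by
        simp only [domF, hb]
      rw [e]
      rcases List.mem_cons.mp he with rfl | he
      · obtain ⟨e', h1, h2, h3⟩ := ih e1 List.mem_cons_self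
        refine ⟨e', h1, ?_, le_trans h01 h3⟩
        rw [h2]
        exact (Nat.eq_of_beq_eq_true hb).symm
      · exact ih _ he

/-- The size test: the state that remains when a triple of total size `s` is removed from a state
with `cnt` rows of total size `RS` must have room in its triples. -/
def keepB (L RS cnt s : ℕ) : Bool :=
  Nat.ble (Nat.mul 3 RS) (Nat.add (Nat.mul (Nat.sub cnt 3) L) (Nat.mul 3 s))

theorem keep_sound {L : ℕ} {F : List Row} (hnd : (F.map Row.pos).Nodup) {X b c : Row}
    (hX : X ∈ F) (hb : b ∈ rmv F X.pos) (hc : c ∈ rmv (rmv F X.pos) b.pos)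
    (hT : TriPart L (szs (rmv (rmv (rmv F X.pos) b.pos) c.pos))) :
    keepB L (sumSz F) F.length (Nat.add (Nat.add X.sz b.sz) c.sz) = true := by
  have e1 := szs_rmv hnd hX
  have e2 := szs_rmv (nodup_rmv hnd X.pos) hb
  have e3 := szs_rmv (nodup_rmv (nodup_rmv hnd X.pos) b.pos) hc
  have hs := tri_sum hT
  have hsum : sumSz F = X.sz + b.sz + c.sz
      + (szs (rmv (rmv (rmv F X.pos) b.pos) c.pos)).sum := by
    rw [sumSz_eq, e1, e2, e3]
    simp only [Multiset.sum_cons]
    ring
  have hcard : F.length = 3 + Multiset.card (szs (rmv (rmv (rmv F X.pos) b.pos) c.pos)) := by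
    rw [← card_szs F, e1, e2, e3]
    simp only [Multiset.card_cons]
    ring
  unfold keepB
  apply Nat.ble_eq_true_of_le
  show 3 * sumSz F ≤ (F.length - 3) * L + 3 * (X.sz + b.sz + c.sz)
  rw [hsum, hcard]
  have : 3 + Multiset.card (szs (rmv (rmv (rmv F X.pos) b.pos) c.pos)) - 3
      = Multiset.card (szs (rmv (rmv (rmv F X.pos) b.pos) c.pos)) := by omega
  rw [this]
  linarith

/-- Test whether `p` is the lowest bit of `m` (for a bit `p` of `m`). -/
def lowTest (m p : ℕ) : Bool := Nat.beq (Nat.land (Nat.sub m 1) (Nat.pow 2 p)) 0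

/-- The states after one step from the state `m`, where `X` is the row to be removed, `G` the
other present rows, `RS` the total size and `cnt` the number of the present rows. -/
def kidsX (L m RS cnt : ℕ) (G : List Row) (X : Row) : List ℕ :=
  ((domF (cands L X.sz G.reverse G)).filter
      (fun e => keepB L RS cnt (Nat.add (Nat.add X.sz e.1.sz) e.2.sz))).map
    (fun e => Nat.xor (Nat.xor (Nat.xor m (Nat.pow 2 X.pos)) (Nat.pow 2 e.1.pos))
      (Nat.pow 2 e.2.pos))

/-- The states after one step from the state `m`. A state without a row to remove is kept as it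
is (so that the search does not end). -/
def kids (rows : List Row) (L m : ℕ) : List ℕ :=
  match (sel rows m).find? (fun r => lowTest m r.pos) with
  | none => [m]
  | some X => kidsX L m (sumSz (sel rows m)) (sel rows m).length (rmv (sel rows m) X.pos) X

/-- A state with a triple partition has a child with a triple partition. -/
theorem kids_sound {rows : List Row} {L : ℕ} (hnd : (rows.map Row.pos).Nodup)
    (hsort : rows.Pairwise (fun a b => b.sz ≤ a.sz)) {m : ℕ}
    (hT : TriPart L (szs (sel rows m))) :
    ∃ m' ∈ kids rows L m, TriPart L (szs (sel rows m')) := by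
  cases hf : (sel rows m).find? (fun r => lowTest m r.pos) with
  | none =>
    refine ⟨m, ?_, hT⟩
    simp only [kids, hf]
    exact List.mem_cons_self
  | some X =>
    have hXF : X ∈ sel rows m := List.mem_of_find?_eq_some hf
    have hndF : ((sel rows m).map Row.pos).Nodup := nodup_filter hnd _
    have hsF : (sel rows m).Pairwise (fun a b => b.sz ≤ a.sz) := hsort.sublist List.filter_sublist
    have key : ∃ b c : Row, b ∈ rmv (sel rows m) X.pos ∧ c ∈ rmv (sel rows m) X.pos ∧
        c.pos ≠ b.pos ∧ X.sz + b.sz + c.sz ≤ L ∧ b.sz ≤ c.sz ∧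
        TriPart L (szs (rmv (rmv (rmv (sel rows m) X.pos) b.pos) c.pos)) := by
      obtain ⟨b, c, hb, hc, hcb, hfit, hT3⟩ := tri_rows hndF hXF hT
      rcases le_total b.sz c.sz with h | h
      · exact ⟨b, c, hb, hc, hcb, hfit, h, hT3⟩
      · refine ⟨c, b, hc, hb, fun h' => hcb h'.symm, by omega, h, ?_⟩
        rw [rmv_comm]
        exact hT3
    obtain ⟨b, c, hb, hc, hcb, hfit, hbc, hT3⟩ := key
    have hndG := nodup_rmv hndF X.pos
    have hsG := sorted_rmv hsF X.pos
    have hsGr : (rmv (sel rows m) X.pos).reverse.Pairwise (fun a b => a.sz ≤ b.sz) :=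
      List.pairwise_reverse.mpr hsG
    obtain ⟨c', hmem, hc'G, hc'b, hcc'⟩ := cands_spec L X.sz (rmv (sel rows m) X.pos).reverse
      (rmv (sel rows m) X.pos) [] hsGr (by simp) hsG b (List.mem_reverse.mpr hb) c
      (by simpa using hc) hcb hfit hbc
    -- exchange `c` for `c'`
    have hT4 : TriPart L (szs (rmv (rmv (rmv (sel rows m) X.pos) b.pos) c'.pos)) :=
      tri_swap (nodup_rmv hndG b.pos) (u := c') (v := c) (mem_rmv.mpr ⟨hc'G, hc'b⟩)
        (mem_rmv.mpr ⟨hc, hcb⟩) hcc' hT3
    -- domination
    have hpw : ((cands L X.sz (rmv (sel rows m) X.pos).reverse (rmv (sel rows m) X.pos)).map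
        Prod.fst).Pairwise (fun a b => a.sz ≤ b.sz) := hsGr.sublist (cands_sub _ _ _ _)
    obtain ⟨e', he', hpos, hsz⟩ := domF_spec _ hpw (b, c') hmem
    obtain ⟨he1, he2, he3⟩ := cands_mem _ _ _ _ e' (domF_sub _ e' he')
    have he1' : e'.1 ∈ rmv (sel rows m) X.pos := List.mem_reverse.mp he1
    have hc'' : e'.2 = c' := eq_of_pos_eq hndG he2 hc'G hpos
    have hT5 : TriPart L (szs (rmv (rmv (rmv (sel rows m) X.pos) c'.pos) e'.1.pos)) := by
      refine tri_swap (nodup_rmv hndG c'.pos) (u := e'.1) (v := b)
        (mem_rmv.mpr ⟨he1', ?_⟩) (mem_rmv.mpr ⟨hb, fun h => hc'b h.symm⟩) hsz ?_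
      · rw [← hc'']
        exact fun h => he3 h.symm
      · rw [rmv_comm]
        exact hT4
    have hT6 : TriPart L (szs (rmv (rmv (rmv (sel rows m) X.pos) e'.1.pos) e'.2.pos)) := by
      rw [hc'', rmv_comm]
      exact hT5
    have he2' : e'.2 ∈ rmv (rmv (sel rows m) X.pos) e'.1.pos := mem_rmv.mpr ⟨he2, he3⟩
    -- the masks
    have hb1 : Nat.testBit m X.pos = true := mem_sel_tb hXF
    have hs1 := sel_xor' rows m X.pos hb1
    have hb2 : Nat.testBit (Nat.xor m (Nat.pow 2 X.pos)) e'.1.pos = true := by
      apply mem_sel_tb (rows := rows)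
      rw [hs1]
      exact he1'
    have hs2 := sel_xor' rows _ e'.1.pos hb2
    have hb3 : Nat.testBit (Nat.xor (Nat.xor m (Nat.pow 2 X.pos)) (Nat.pow 2 e'.1.pos)) e'.2.pos
        = true := by
      apply mem_sel_tb (rows := rows)
      rw [hs2, hs1]
      exact he2'
    have hs3 := sel_xor' rows _ e'.2.pos hb3
    refine ⟨Nat.xor (Nat.xor (Nat.xor m (Nat.pow 2 X.pos)) (Nat.pow 2 e'.1.pos))
      (Nat.pow 2 e'.2.pos), ?_, ?_⟩
    · simp only [kids, hf]
      unfold kidsX
      refine List.mem_map.mpr ⟨e', List.mem_filter.mpr ⟨he', ?_⟩, rfl⟩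
      exact keep_sound hndF hXF he1' he2' hT6
    · rw [hs3, hs2, hs1]
      exact hT6

/-- Merge two lists of numbers, identifying equal heads (the first argument is fuel). -/
def mergeN : ℕ → List ℕ → List ℕ → List ℕ
  | 0, xs, ys => xs ++ ys
  | _ + 1, [], ys => ys
  | _ + 1, x :: xs, [] => x :: xs
  | f + 1, x :: xs, y :: ys =>
    match Nat.ble y x with
    | false => x :: mergeN f xs (y :: ys)
    | true =>
      match Nat.ble x y with
      | false => y :: mergeN f (x :: xs) ys
      | true => x :: mergeN f xs ys

theorem mem_mergeN : ∀ (f : ℕ) (xs ys : List ℕ) (s : ℕ), s ∈ xs ∨ s ∈ ys → s ∈ mergeN f xs ys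
  | 0, xs, ys, s, h => by
    unfold mergeN
    exact List.mem_append.mpr h
  | _ + 1, [], ys, s, h => by
    unfold mergeN
    rcases h with h | h
    · simp at h
    · exact h
  | _ + 1, x :: xs, [], s, h => by
    unfold mergeN
    rcases h with h | h
    · exact h
    · simp at h
  | f + 1, x :: xs, y :: ys, s, h => by
    cases h1 : Nat.ble y x
    · simp only [mergeN, h1]
      rcases h with h | h
      · rcases List.mem_cons.mp h with rfl | h
        · exact List.mem_cons_self
        · exact List.mem_cons_of_mem _ (mem_mergeN f xs (y :: ys) s (Or.inl h))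
      · exact List.mem_cons_of_mem _ (mem_mergeN f xs (y :: ys) s (Or.inr h))
    · cases h2 : Nat.ble x y
      · simp only [mergeN, h1, h2]
        rcases h with h | h
        · exact List.mem_cons_of_mem _ (mem_mergeN f (x :: xs) ys s (Or.inl h))
        · rcases List.mem_cons.mp h with rfl | h
          · exact List.mem_cons_self
          · exact List.mem_cons_of_mem _ (mem_mergeN f (x :: xs) ys s (Or.inr h))
      · simp only [mergeN, h1, h2]
        have hxy : x = y := Nat.le_antisymm (Nat.le_of_ble_eq_true h2) (Nat.le_of_ble_eq_true h1)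
        subst hxy
        rcases h with h | h
        · rcases List.mem_cons.mp h with rfl | h
          · exact List.mem_cons_self
          · exact List.mem_cons_of_mem _ (mem_mergeN f xs ys s (Or.inl h))
        · rcases List.mem_cons.mp h with rfl | h
          · exact List.mem_cons_self
          · exact List.mem_cons_of_mem _ (mem_mergeN f xs ys s (Or.inr h))

/-- One round of pairwise merging. -/
def mergePairsN (fu : ℕ) : List (List ℕ) → List (List ℕ)
  | [] => []
  | [a] => [a]
  | a :: b :: rest => mergeN fu a b :: mergePairsN fu rest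

theorem mem_mergePairsN (fu : ℕ) : ∀ (ls : List (List ℕ)) (s : ℕ),
    (∃ a ∈ ls, s ∈ a) → ∃ a ∈ mergePairsN fu ls, s ∈ a
  | [], s, h => by
    obtain ⟨a, ha, -⟩ := h
    simp at ha
  | [a], s, h => by
    unfold mergePairsN
    exact h
  | a :: b :: rest, s, h => by
    unfold mergePairsN
    obtain ⟨a', ha', hs⟩ := h
    rcases List.mem_cons.mp ha' with rfl | ha'
    · exact ⟨_, List.mem_cons_self, mem_mergeN _ _ _ _ (Or.inl hs)⟩
    · rcases List.mem_cons.mp ha' with rfl | ha'
      · exact ⟨_, List.mem_cons_self, mem_mergeN _ _ _ _ (Or.inr hs)⟩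
      · obtain ⟨c, hc, hsc⟩ := mem_mergePairsN fu rest s ⟨a', ha', hs⟩
        exact ⟨c, List.mem_cons_of_mem _ hc, hsc⟩

/-- Merge a list of lists of numbers into one list (the first argument is fuel). -/
def mergeAllN (fu : ℕ) : ℕ → List (List ℕ) → List ℕ
  | 0, ls => ls.flatten
  | _ + 1, [] => []
  | _ + 1, [a] => a
  | f + 1, a :: b :: rest => mergeAllN fu f (mergePairsN fu (a :: b :: rest))

theorem mem_mergeAllN (fu : ℕ) : ∀ (f : ℕ) (ls : List (List ℕ)) (s : ℕ),
    (∃ a ∈ ls, s ∈ a) → s ∈ mergeAllN fu f ls
  | 0, ls, s, h => by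
    unfold mergeAllN
    exact List.mem_flatten.mpr h
  | _ + 1, [], s, h => by
    obtain ⟨a, ha, -⟩ := h
    simp at ha
  | _ + 1, [a], s, h => by
    unfold mergeAllN
    obtain ⟨a', ha', hs⟩ := h
    rcases List.mem_cons.mp ha' with rfl | ha'
    · exact hs
    · simp at ha'
  | f + 1, a :: b :: rest, s, h => by
    unfold mergeAllN
    exact mem_mergeAllN fu f _ s (mem_mergePairsN fu _ s h)

/-- One step of the search: the children of all states of a layer, sorted and with repetitions
removed. -/
def stepF (rows : List Row) (L : ℕ) (layer : List ℕ) : List ℕ :=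
  mergeAllN 1000000000000 64 (layer.map (kids rows L))

theorem mem_stepF {rows : List Row} {L : ℕ} {layer : List ℕ} {m m' : ℕ} (hm : m ∈ layer)
    (hm' : m' ∈ kids rows L m) : m' ∈ stepF rows L layer := by
  unfold stepF
  exact mem_mergeAllN _ _ _ _ ⟨_, List.mem_map.mpr ⟨m, hm, rfl⟩, hm'⟩

/-- `reachF rows L d layer = true` certifies that no state of `layer` can be split into triples
of total size at most `L` (the number `d` bounds the number of steps). -/
def reachF (rows : List Row) (L : ℕ) : ℕ → List ℕ → Bool
  | 0, layer => layer.isEmpty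
  | d + 1, layer =>
    match layer with
    | [] => true
    | _ :: _ => reachF rows L d (stepF rows L layer)

theorem reachF_sound {rows : List Row} {L : ℕ} (hnd : (rows.map Row.pos).Nodup)
    (hsort : rows.Pairwise (fun a b => b.sz ≤ a.sz)) :
    ∀ (d : ℕ) (layer : List ℕ), reachF rows L d layer = true →
      ∀ m ∈ layer, ¬ TriPart L (szs (sel rows m))
  | 0, layer, h, m, hm => by
    unfold reachF at h
    rw [List.isEmpty_iff] at h
    rw [h] at hm
    simp at hm
  | d + 1, [], _, m, hm => by simp at hm
  | d + 1, a :: layer, h, m, hm => by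
    intro hT
    simp only [reachF] at h
    obtain ⟨m', hm', hT'⟩ := kids_sound hnd hsort hT
    exact reachF_sound hnd hsort d _ h m' (mem_stepF hm hm') hT'

/-- Boolean test: the numbers of a list are pairwise distinct. -/
def nodupB : List ℕ → Bool
  | [] => true
  | p :: ps => !(ps.any (Nat.beq p)) && nodupB ps

theorem nodupB_sound : ∀ {l : List ℕ}, nodupB l = true → l.Nodup
  | [], _ => List.nodup_nil
  | p :: ps, h => by
    unfold nodupB at h
    rw [Bool.and_eq_true] at h
    obtain ⟨h1, h2⟩ := h
    rw [List.nodup_cons]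
    refine ⟨fun hmem => ?_, nodupB_sound h2⟩
    have : ps.any (Nat.beq p) = true := List.any_eq_true.mpr ⟨p, hmem, Nat.beq_refl p⟩
    rw [this] at h1
    simp at h1

/-- The certificate check: the items `l` (sorted non-increasingly, all larger than `L/4`) cannot
be packed into `m` bins of capacity `L`.  The rows `rows` list the lightest `3 (n - 2m)` items by
non-increasing size, at pairwise distinct bit positions; `m0` is the mask of all rows. -/
def checkF (l : List ℕ) (L m : ℕ) (rows : List Row) (m0 : ℕ) : Bool :=
  sortedDesc l &&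
    (l.all (fun k => Nat.ble L (4 * k)) && l.dropLast.all (fun k => Nat.blt L (4 * k))) &&
    Nat.ble (3 * (l.length - 2 * m)) l.length &&
    ((sel rows m0).map Row.sz == l.drop (l.length - 3 * (l.length - 2 * m))) &&
    sortedDesc (rows.map Row.sz) &&
    nodupB (rows.map Row.pos) &&
    reachF rows L (l.length - 2 * m) [m0]

theorem checkF_sound {l : List ℕ} {L m : ℕ} {rows : List Row} {m0 : ℕ}
    (h : checkF l L m rows m0 = true) : ¬ PackableNat l L m := by
  intro hp
  unfold checkF at h
  simp only [Bool.and_eq_true] at h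
  obtain ⟨⟨⟨⟨⟨⟨hsorted, hbig1', hbig2'⟩, hle'⟩, hstart⟩, hrs⟩, hnd⟩, hreach⟩ := h
  have hbig1 : ∀ k ∈ l, L ≤ 4 * k := by
    intro k hk
    exact Nat.le_of_ble_eq_true (List.all_eq_true.mp hbig1' k hk)
  have hbig2 : ∀ k ∈ l.dropLast, L < 4 * k := by
    intro k hk
    have := List.all_eq_true.mp hbig2' k hk
    rwa [Nat.blt_eq] at this
  have hle : 3 * (l.length - 2 * m) ≤ l.length := Nat.le_of_ble_eq_true hle'
  have hQ := exists_triples (card_le_three hbig1 hbig2) hp
  have hQ' := QTri.drop (l.length - 3 * (l.length - 2 * m)) l (sortedDesc_sound hsorted)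
    (by omega) hQ
  obtain ⟨U, hU, hc, hT⟩ := hQ'
  have hUeq : U = ((l.drop (l.length - 3 * (l.length - 2 * m)) : List ℕ) : Multiset ℕ) := by
    apply Multiset.eq_of_le_of_card_le hU
    simp only [Multiset.coe_card, List.length_drop]
    omega
  have hUs : U = szs (sel rows m0) := by
    rw [hUeq]
    unfold szs
    rw [eq_of_beq hstart]
  rw [hUs] at hT
  have hsort : rows.Pairwise (fun a b => b.sz ≤ a.sz) := by
    have := sortedDesc_sound hrs
    rw [List.pairwise_map] at this
    exact this
  exact reachF_sound (nodupB_sound hnd) hsort _ _ hreach m0 (List.mem_singleton.mpr rfl) hT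

/-- Certificate theorem: for items of integer sizes `l` (sorted non-increasingly, all larger than
`L/4`) and capacity `L`, if the mask search refutes a packing into `m` bins and `zs` is a
fractional solution of value `V / D`, then `OPT - LP ≥ m + 1 - V / D`. -/
theorem gap_of_cert_f (l : List ℕ) (L m D : ℕ) (rows : List Row) (m0 : ℕ)
    (zs : List (List ℕ × ℕ)) (hL : 0 < L) (hD : 0 < D)
    (hle : ∀ k ∈ l, 0 < k ∧ k ≤ L) (hpack : checkF l L m rows m0 = true)
    (hfrac : fracOK l L D zs = true) :
    IsInstance (ratInst l L) ∧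
      ((m : ℝ) + 1) - (((zs.map Prod.snd).sum : ℕ) : ℝ) / D
        ≤ (OPT (ratInst l L) : ℝ) - LP (ratInst l L) := by
  have hI := ratInst_isInstance hL hle
  refine ⟨hI, ?_⟩
  have h1 : m + 1 ≤ OPT (ratInst l L) :=
    opt_ge hI (fun hp => checkF_sound hpack (packableNat_of_packable hL hp))
  have h2 := lp_le (isFracSol_of_fracOK hL hD hfrac)
  rw [ratSol_value] at h2
  have h1' : ((m : ℝ) + 1) ≤ (OPT (ratInst l L) : ℝ) := by exact_mod_cast h1
  have h2' : LP (ratInst l L) ≤ (((zs.map Prod.snd).sum : ℕ) : ℝ) / D := by
    have e : ((((((zs.map Prod.snd).sum : ℕ) : ℚ) / D : ℚ)) : ℝ)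
        = (((zs.map Prod.snd).sum : ℕ) : ℝ) / D := by
      rw [Rat.cast_div, Rat.cast_natCast, Rat.cast_natCast]
    rw [← e]
    exact h2
  linarith

end Vale.Agent.Lib.P302.helper8
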