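import Mathlib
import Vale.Agent.Lib.P302.helper8.Fast

/-!
# P302: the mask search, checked piece by piece

The layers of the search of `Fast` are given as data; for a piece of a layer, `stepOKF` checks
that every child of a state of the piece occurs in the next layer (a sorted walk through both
lists).  The pieces are then put together by `append_no` and `stepOKF_sound`.
-/

namespace Vale.Agent.Lib.P302.helper8

open Vale.Agent.Lib.P302.helper14

/-- Sorted walk: every number of the first list occurs in the second list (the first argument is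
fuel). -/
def subWalkN : ℕ → List ℕ → List ℕ → Bool
  | 0, xs, _ => xs.isEmpty
  | _ + 1, [], _ => true
  | _ + 1, _ :: _, [] => false
  | f + 1, x :: xs, y :: ys =>
    match Nat.beq x y with
    | true => subWalkN f xs (y :: ys)
    | false =>
      match Nat.ble y x with
      | true => subWalkN f (x :: xs) ys
      | false => false

theorem subWalkN_sound : ∀ (f : ℕ) (xs ys : List ℕ), subWalkN f xs ys = true →
    ∀ s ∈ xs, s ∈ ys
  | 0, xs, ys, h, s, hs => by
    unfold subWalkN at h
    rw [List.isEmpty_iff] at h
    rw [h] at hs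
    simp at hs
  | _ + 1, [], ys, _, s, hs => by simp at hs
  | _ + 1, x :: xs, [], h, s, hs => by
    unfold subWalkN at h
    simp at h
  | f + 1, x :: xs, y :: ys, h, s, hs => by
    cases hb : Nat.beq x y
    · cases hl : Nat.ble y x
      · simp only [subWalkN, hb, hl] at h
        simp at h
      · simp only [subWalkN, hb, hl] at h
        exact List.mem_cons_of_mem _ (subWalkN_sound f (x :: xs) ys h s hs)
    · simp only [subWalkN, hb] at h
      have hxy : x = y := Nat.eq_of_beq_eq_true hb
      rcases List.mem_cons.mp hs with rfl | hs'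
      · rw [hxy]
        exact List.mem_cons_self
      · exact subWalkN_sound f xs (y :: ys) h s hs'

/-- Boolean test on the rows: sizes non-increasing, positions pairwise distinct. -/
def rowsOK (rows : List Row) : Bool :=
  sortedDesc (rows.map Row.sz) && nodupB (rows.map Row.pos)

theorem rowsOK_sound {rows : List Row} (h : rowsOK rows = true) :
    (rows.map Row.pos).Nodup ∧ rows.Pairwise (fun a b => b.sz ≤ a.sz) := by
  unfold rowsOK at h
  rw [Bool.and_eq_true] at h
  refine ⟨nodupB_sound h.2, ?_⟩
  have := sortedDesc_sound h.1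
  rw [List.pairwise_map] at this
  exact this

/-- Check for one piece of a layer: every child of a state of the piece occurs in `next`. -/
def stepOKF (rows : List Row) (L : ℕ) (piece next : List ℕ) : Bool :=
  subWalkN 1000000000000 (stepF rows L piece) next

theorem stepOKF_sound {rows : List Row} {L : ℕ} {piece next : List ℕ}
    (hr : rowsOK rows = true) (h : stepOKF rows L piece next = true)
    (hnext : ∀ m ∈ next, ¬ TriPart L (szs (sel rows m))) :
    ∀ m ∈ piece, ¬ TriPart L (szs (sel rows m)) := by
  intro m hm hT
  obtain ⟨hnd, hsort⟩ := rowsOK_sound hr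
  obtain ⟨m', hm', hT'⟩ := kids_sound hnd hsort hT
  exact hnext m' (subWalkN_sound _ _ _ h m' (mem_stepF hm hm')) hT'

theorem nil_no (rows : List Row) (L : ℕ) :
    ∀ m ∈ ([] : List ℕ), ¬ TriPart L (szs (sel rows m)) := by
  intro m hm
  simp at hm

theorem append_no {rows : List Row} {L : ℕ} {a b : List ℕ}
    (ha : ∀ m ∈ a, ¬ TriPart L (szs (sel rows m)))
    (hb : ∀ m ∈ b, ¬ TriPart L (szs (sel rows m))) :
    ∀ m ∈ a ++ b, ¬ TriPart L (szs (sel rows m)) := by
  intro m hm
  rcases List.mem_append.mp hm with h | h
  · exact ha m h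
  · exact hb m h

/-- The checks on the instance other than the search: the items `l` are sorted non-increasingly
and larger than `L/4`, and the rows present in `m0` list the lightest `3 (n - 2m)` items. -/
def prepF (l : List ℕ) (L m : ℕ) (rows : List Row) (m0 : ℕ) : Bool :=
  sortedDesc l &&
    (l.all (fun k => Nat.ble L (4 * k)) && l.dropLast.all (fun k => Nat.blt L (4 * k))) &&
    Nat.ble (3 * (l.length - 2 * m)) l.length &&
    ((sel rows m0).map Row.sz == l.drop (l.length - 3 * (l.length - 2 * m)))

theorem prepF_sound {l : List ℕ} {L m : ℕ} {rows : List Row} {m0 : ℕ}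
    (h : prepF l L m rows m0 = true) (hno : ∀ m' ∈ [m0], ¬ TriPart L (szs (sel rows m'))) :
    ¬ PackableNat l L m := by
  intro hp
  unfold prepF at h
  simp only [Bool.and_eq_true] at h
  obtain ⟨⟨⟨hsorted, hbig1', hbig2'⟩, hle'⟩, hstart⟩ := h
  have hbig1 : ∀ k ∈ l, L ≤ 4 * k := by
    intro k hk
    exact Nat.le_of_ble_eq_true (List.all_eq_true.mp hbig1' k hk)
  have hbig2 : ∀ k ∈ l.dropLast, L < 4 * k := by
    intro k hk
    have := List.all_eq_true.mp hbig2' k hk
    rwa [Nat.blt_eq] at this
  have hle : 3 * (l.length - 2 * m) ≤ l.length := Nat.le_of_ble_eq_true hle'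
  have hQ := exists_triples (card_le_three hbig1 hbig2) hp
  have hQ' := QTri.drop (l.length - 3 * (l.length - 2 * m)) l (sortedDesc_sound hsorted)
    (by omega) hQ
  obtain ⟨U, hU, hc, hT⟩ := hQ'
  have hUeq : U = ((l.drop (l.length - 3 * (l.length - 2 * m)) : List ℕ) : Multiset ℕ) := by
    apply Multiset.eq_of_le_of_card_le hU
    simp only [Multiset.coe_card, List.length_drop]
    omega
  have hUs : U = szs (sel rows m0) := by
    rw [hUeq]
    unfold szs
    rw [eq_of_beq hstart]
  rw [hUs] at hT
  exact hno m0 (List.mem_singleton.mpr rfl) hT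

/-- Certificate theorem (piecewise form): for items of integer sizes `l` (sorted
non-increasingly, all larger than `L/4`) and capacity `L`, if the lightest `3 (n - 2m)` items
(the rows present in `m0`) cannot be split into triples of total size at most `L` and `zs` is a
fractional solution of value `V / D`, then `OPT - LP ≥ m + 1 - V / D`. -/
theorem gap_of_cert_c (l : List ℕ) (L m D : ℕ) (rows : List Row) (m0 : ℕ)
    (zs : List (List ℕ × ℕ)) (hL : 0 < L) (hD : 0 < D)
    (hle : ∀ k ∈ l, 0 < k ∧ k ≤ L) (hprep : prepF l L m rows m0 = true)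
    (hno : ∀ m' ∈ [m0], ¬ TriPart L (szs (sel rows m')))
    (hfrac : fracOK l L D zs = true) :
    IsInstance (ratInst l L) ∧
      ((m : ℝ) + 1) - (((zs.map Prod.snd).sum : ℕ) : ℝ) / D
        ≤ (OPT (ratInst l L) : ℝ) - LP (ratInst l L) := by
  have hI := ratInst_isInstance hL hle
  refine ⟨hI, ?_⟩
  have h1 : m + 1 ≤ OPT (ratInst l L) :=
    opt_ge hI (fun hp => prepF_sound hprep hno (packableNat_of_packable hL hp))
  have h2 := lp_le (isFracSol_of_fracOK hL hD hfrac)
  rw [ratSol_value] at h2
  have h1' : ((m : ℝ) + 1) ≤ (OPT (ratInst l L) : ℝ) := by exact_mod_cast h1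
  have h2' : LP (ratInst l L) ≤ (((zs.map Prod.snd).sum : ℕ) : ℝ) / D := by
    have e : ((((((zs.map Prod.snd).sum : ℕ) : ℚ) / D : ℚ)) : ℝ)
        = (((zs.map Prod.snd).sum : ℕ) : ℝ) / D := by
      rw [Rat.cast_div, Rat.cast_natCast, Rat.cast_natCast]
    rw [← e]
    exact h2
  linarith

end Vale.Agent.Lib.P302.helper8
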