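import Mathlib
import Vale.Agent.Lib.P302.helper14.ChunkSort

/-!
# P302: the mask search with the row to remove chosen by a list of positions

A variant of the step of `Fast`: the row that is removed first is the present row whose position
comes first in a given list `prio` of positions (instead of the present row at the lowest bit).
The soundness argument is the same (it works for any present row), so the bit positions of the
rows can be chosen freely.
-/

namespace Vale.Agent.Lib.P302.helper8

open Vale.Agent.Lib.P302.helper14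

/-- A state with a triple partition has a child with a triple partition, whichever present row
`X` is removed first. -/
theorem kidsX_sound {rows : List Row} {L : ℕ} (hnd : (rows.map Row.pos).Nodup)
    (hsort : rows.Pairwise (fun a b => b.sz ≤ a.sz)) {m : ℕ} {X : Row} (hXF : X ∈ sel rows m)
    (hT : TriPart L (szs (sel rows m))) :
    ∃ m' ∈ kidsX L m (sumSz (sel rows m)) (sel rows m).length (rmv (sel rows m) X.pos) X,
      TriPart L (szs (sel rows m')) := by
  have hndF : ((sel rows m).map Row.pos).Nodup := nodup_filter hnd _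
  have hsF : (sel rows m).Pairwise (fun a b => b.sz ≤ a.sz) := hsort.sublist List.filter_sublist
  have key : ∃ b c : Row, b ∈ rmv (sel rows m) X.pos ∧ c ∈ rmv (sel rows m) X.pos ∧
      c.pos ≠ b.pos ∧ X.sz + b.sz + c.sz ≤ L ∧ b.sz ≤ c.sz ∧
      TriPart L (szs (rmv (rmv (rmv (sel rows m) X.pos) b.pos) c.pos)) := by
    obtain ⟨b, c, hb, hc, hcb, hfit, hT3⟩ := tri_rows hndF hXF hT
    rcases le_total b.sz c.sz with h | h
    · exact ⟨b, c, hb, hc, hcb, hfit, h, hT3⟩
    · refine ⟨c, b, hc, hb, fun h' => hcb h'.symm, by omega, h, ?_⟩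
      rw [rmv_comm]
      exact hT3
  obtain ⟨b, c, hb, hc, hcb, hfit, hbc, hT3⟩ := key
  have hndG := nodup_rmv hndF X.pos
  have hsG := sorted_rmv hsF X.pos
  have hsGr : (rmv (sel rows m) X.pos).reverse.Pairwise (fun a b => a.sz ≤ b.sz) :=
    List.pairwise_reverse.mpr hsG
  obtain ⟨c', hmem, hc'G, hc'b, hcc'⟩ := cands_spec L X.sz (rmv (sel rows m) X.pos).reverse
    (rmv (sel rows m) X.pos) [] hsGr (by simp) hsG b (List.mem_reverse.mpr hb) c
    (by simpa using hc) hcb hfit hbc
  have hT4 : TriPart L (szs (rmv (rmv (rmv (sel rows m) X.pos) b.pos) c'.pos)) :=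
    tri_swap (nodup_rmv hndG b.pos) (u := c') (v := c) (mem_rmv.mpr ⟨hc'G, hc'b⟩)
      (mem_rmv.mpr ⟨hc, hcb⟩) hcc' hT3
  have hpw : ((cands L X.sz (rmv (sel rows m) X.pos).reverse (rmv (sel rows m) X.pos)).map
      Prod.fst).Pairwise (fun a b => a.sz ≤ b.sz) := hsGr.sublist (cands_sub _ _ _ _)
  obtain ⟨e', he', hpos, hsz⟩ := domF_spec _ hpw (b, c') hmem
  obtain ⟨he1, he2, he3⟩ := cands_mem _ _ _ _ e' (domF_sub _ e' he')
  have he1' : e'.1 ∈ rmv (sel rows m) X.pos := List.mem_reverse.mp he1
  have hc'' : e'.2 = c' := eq_of_pos_eq hndG he2 hc'G hpos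
  have hT5 : TriPart L (szs (rmv (rmv (rmv (sel rows m) X.pos) c'.pos) e'.1.pos)) := by
    refine tri_swap (nodup_rmv hndG c'.pos) (u := e'.1) (v := b)
      (mem_rmv.mpr ⟨he1', ?_⟩) (mem_rmv.mpr ⟨hb, fun h => hc'b h.symm⟩) hsz ?_
    · rw [← hc'']
      exact fun h => he3 h.symm
    · rw [rmv_comm]
      exact hT4
  have hT6 : TriPart L (szs (rmv (rmv (rmv (sel rows m) X.pos) e'.1.pos) e'.2.pos)) := by
    rw [hc'', rmv_comm]
    exact hT5
  have he2' : e'.2 ∈ rmv (rmv (sel rows m) X.pos) e'.1.pos := mem_rmv.mpr ⟨he2, he3⟩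
  have hb1 : Nat.testBit m X.pos = true := mem_sel_tb hXF
  have hs1 := sel_xor' rows m X.pos hb1
  have hb2 : Nat.testBit (Nat.xor m (Nat.pow 2 X.pos)) e'.1.pos = true := by
    apply mem_sel_tb (rows := rows)
    rw [hs1]
    exact he1'
  have hs2 := sel_xor' rows _ e'.1.pos hb2
  have hb3 : Nat.testBit (Nat.xor (Nat.xor m (Nat.pow 2 X.pos)) (Nat.pow 2 e'.1.pos)) e'.2.pos
      = true := by
    apply mem_sel_tb (rows := rows)
    rw [hs2, hs1]
    exact he2'
  have hs3 := sel_xor' rows _ e'.2.pos hb3
  refine ⟨Nat.xor (Nat.xor (Nat.xor m (Nat.pow 2 X.pos)) (Nat.pow 2 e'.1.pos))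
    (Nat.pow 2 e'.2.pos), ?_, ?_⟩
  · unfold kidsX
    refine List.mem_map.mpr ⟨e', List.mem_filter.mpr ⟨he', ?_⟩, rfl⟩
    exact keep_sound hndF hXF he1' he2' hT6
  · rw [hs3, hs2, hs1]
    exact hT6

/-- The states after one step from the state `m`; the row that is removed first is the present
row whose position comes first in the list `prio`. A state without such a row is kept as it is
(so that the search does not end). -/
def kidsP (rows : List Row) (prio : List ℕ) (L m : ℕ) : List ℕ :=
  match prio.find? (fun p => tb m p) with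
  | none => [m]
  | some p =>
    match (sel rows m).find? (fun r => Nat.beq r.pos p) with
    | none => [m]
    | some X => kidsX L m (sumSz (sel rows m)) (sel rows m).length (rmv (sel rows m) X.pos) X

theorem kidsP_sound {rows : List Row} {L : ℕ} (hnd : (rows.map Row.pos).Nodup)
    (hsort : rows.Pairwise (fun a b => b.sz ≤ a.sz)) (prio : List ℕ) {m : ℕ}
    (hT : TriPart L (szs (sel rows m))) :
    ∃ m' ∈ kidsP rows prio L m, TriPart L (szs (sel rows m')) := by
  cases hp : prio.find? (fun p => tb m p) with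
  | none =>
    refine ⟨m, ?_, hT⟩
    simp only [kidsP, hp]
    exact List.mem_cons_self
  | some p =>
    cases hf : (sel rows m).find? (fun r => Nat.beq r.pos p) with
    | none =>
      refine ⟨m, ?_, hT⟩
      simp only [kidsP, hp, hf]
      exact List.mem_cons_self
    | some X =>
      have hXF : X ∈ sel rows m := List.mem_of_find?_eq_some hf
      obtain ⟨m', hm', hT'⟩ := kidsX_sound hnd hsort hXF hT
      refine ⟨m', ?_, hT'⟩
      simp only [kidsP, hp, hf]
      exact hm'

/-- Check for one piece of a layer: every child of a state of the piece occurs in `next`. -/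
def stepOKP (rows : List Row) (prio : List ℕ) (L : ℕ) (piece next : List ℕ) : Bool :=
  subWalkN 1000000000000 (sortN (piece.flatMap (kidsP rows prio L))) next

theorem stepOKP_sound {rows : List Row} {prio : List ℕ} {L : ℕ} {piece next : List ℕ}
    (hr : rowsOK rows = true) (h : stepOKP rows prio L piece next = true)
    (hnext : ∀ m ∈ next, ¬ TriPart L (szs (sel rows m))) :
    ∀ m ∈ piece, ¬ TriPart L (szs (sel rows m)) := by
  intro m hm hT
  obtain ⟨hnd, hsort⟩ := rowsOK_sound hr
  obtain ⟨m', hm', hT'⟩ := kidsP_sound hnd hsort prio hT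
  exact hnext m' (subWalkN_sound _ _ _ h m'
    (mem_sortN (List.mem_flatMap.mpr ⟨m, hm, hm'⟩))) hT'

end Vale.Agent.Lib.P302.helper8
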