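import Mathlib
import Vale.Agent.Lib.P302.helper8.Prio

/-!
# P302: a faster form of the step of the mask search

`kidsR` computes the same list of states as `kidsP` of `Prio` (theorem `kidsR_eq`), with far fewer
reduction steps: the two-pointer scan walks the fixed lists `rows.reverse` and `rows` and skips
the rows that are absent from the state (no lists of present rows are built), the scan stops as
soon as the two pointers have crossed, the total size and the number of the present rows are
found in one pass, and all loops are written with the recursors of `List` and `Bool`.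
-/

namespace Vale.Agent.Lib.P302.helper8

open Vale.Agent.Lib.P302.helper14

/-- The row `r` is present in the state `m` and is not at the position `xp`. -/
noncomputable def prR (m xp : ℕ) (r : Row) : Bool :=
  Bool.rec (motive := fun _ => Bool) false
    (Bool.rec (motive := fun _ => Bool) true false (Nat.beq r.pos xp)) (tb m r.pos)

theorem prR_eq (m xp : ℕ) (r : Row) : prR m xp r = (tb m r.pos && !(Nat.beq r.pos xp)) := by
  unfold prR
  cases tb m r.pos <;> cases Nat.beq r.pos xp <;> rfl

/-- `dropBig` on the rows that satisfy `pr`, without building the list of these rows. -/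
noncomputable def dropBigR (pr : Row → Bool) (L s : ℕ) (p : List Row) : List Row :=
  List.rec (motive := fun _ => List Row) []
    (fun r rest ih => Bool.rec (motive := fun _ => List Row) ih
        (Bool.rec (motive := fun _ => List Row) ih (r :: rest) (Nat.ble (Nat.add s r.sz) L))
        (pr r)) p

theorem dropBigR_cons (pr : Row → Bool) (L s : ℕ) (r : Row) (rest : List Row) :
    dropBigR pr L s (r :: rest) =
      Bool.rec (motive := fun _ => List Row) (dropBigR pr L s rest)
        (Bool.rec (motive := fun _ => List Row) (dropBigR pr L s rest) (r :: rest)
          (Nat.ble (Nat.add s r.sz) L)) (pr r) := rfl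

theorem dropBigR_spec (pr : Row → Bool) (L s : ℕ) : ∀ p : List Row,
    (dropBigR pr L s p = [] ∧ dropBig L s (p.filter pr) = []) ∨
    (∃ r rest, dropBigR pr L s p = r :: rest ∧ pr r = true ∧
      dropBig L s (p.filter pr) = r :: rest.filter pr ∧ (r :: rest) <:+ p)
  | [] => Or.inl ⟨rfl, rfl⟩
  | r :: rest => by
    rw [dropBigR_cons]
    cases hp : pr r
    · have hf : (r :: rest).filter pr = rest.filter pr := by simp [hp]
      rw [hf]
      rcases dropBigR_spec pr L s rest with h | ⟨r', rest', h1, h2, h3, h4⟩
      · exact Or.inl h
      · exact Or.inr ⟨r', rest', h1, h2, h3, h4.trans (List.suffix_cons r rest)⟩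
    · have hf : (r :: rest).filter pr = r :: rest.filter pr := by simp [hp]
      rw [hf]
      cases hb : Nat.ble (Nat.add s r.sz) L
      · have e : dropBig L s (r :: rest.filter pr) = dropBig L s (rest.filter pr) := by
          simp only [dropBig, hb]
        rw [e]
        rcases dropBigR_spec pr L s rest with h | ⟨r', rest', h1, h2, h3, h4⟩
        · exact Or.inl h
        · exact Or.inr ⟨r', rest', h1, h2, h3, h4.trans (List.suffix_cons r rest)⟩
      · have e : dropBig L s (r :: rest.filter pr) = r :: rest.filter pr := by
          simp only [dropBig, hb]
        exact Or.inr ⟨r, rest, rfl, hp, e, List.suffix_refl _⟩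

/-- `pick` on the rows that satisfy `pr`, without building the list of these rows. -/
noncomputable def pickR (pr : Row → Bool) (bp : ℕ) (p : List Row) : Option Row :=
  List.rec (motive := fun _ => Option Row) none
    (fun r _ ih => Bool.rec (motive := fun _ => Option Row) ih
        (Bool.rec (motive := fun _ => Option Row) (some r) ih (Nat.beq r.pos bp))
        (pr r)) p

theorem pickR_cons (pr : Row → Bool) (bp : ℕ) (r : Row) (rest : List Row) :
    pickR pr bp (r :: rest) =
      Bool.rec (motive := fun _ => Option Row) (pickR pr bp rest)
        (Bool.rec (motive := fun _ => Option Row) (some r) (pickR pr bp rest)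
          (Nat.beq r.pos bp)) (pr r) := rfl

theorem pickR_eq (pr : Row → Bool) (bp : ℕ) : ∀ p : List Row,
    pickR pr bp p = pick bp (p.filter pr)
  | [] => rfl
  | r :: rest => by
    rw [pickR_cons]
    cases hp : pr r
    · have hf : (r :: rest).filter pr = rest.filter pr := by simp [hp]
      rw [hf]
      exact pickR_eq pr bp rest
    · have hf : (r :: rest).filter pr = r :: rest.filter pr := by simp [hp]
      rw [hf]
      cases hb : Nat.beq r.pos bp
      · have e : pick bp (r :: rest.filter pr) = some r := by
          simp only [pick, hb]
        rw [e]
      · have e : pick bp (r :: rest.filter pr) = pick bp (rest.filter pr) := by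
          simp only [pick, hb]
        rw [e]
        exact pickR_eq pr bp rest

/-- The candidate pairs of `cands` for the rows that satisfy `pr`: `bs` runs through all rows by
non-decreasing size and `p` through all rows by non-increasing size; rows that do not satisfy `pr`
are skipped, and the scan stops when the row `b` is larger than the largest row that fits. -/
noncomputable def candsR (pr : Row → Bool) (L x : ℕ) (bs : List Row) :
    List Row → List (Row × Row) :=
  List.rec (motive := fun _ => List Row → List (Row × Row))
    (fun _ => [])
    (fun b _ ih p =>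
      Bool.rec (motive := fun _ => List (Row × Row)) (ih p)
        (List.rec (motive := fun _ => List (Row × Row)) []
          (fun r rest _ =>
            Bool.rec (motive := fun _ => List (Row × Row)) []
              (Option.rec (motive := fun _ => List (Row × Row)) (ih (r :: rest))
                (fun c => Bool.rec (motive := fun _ => List (Row × Row)) (ih (r :: rest))
                  ((b, c) :: ih (r :: rest)) (Nat.ble b.sz c.sz))
                (pickR pr b.pos (r :: rest)))
              (Nat.ble b.sz r.sz))
          (dropBigR pr L (Nat.add x b.sz) p))
        (pr b))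
    bs

theorem candsR_cons (pr : Row → Bool) (L x : ℕ) (b : Row) (bs p : List Row) :
    candsR pr L x (b :: bs) p =
      Bool.rec (motive := fun _ => List (Row × Row)) (candsR pr L x bs p)
        (List.rec (motive := fun _ => List (Row × Row)) []
          (fun r rest _ =>
            Bool.rec (motive := fun _ => List (Row × Row)) []
              (Option.rec (motive := fun _ => List (Row × Row)) (candsR pr L x bs (r :: rest))
                (fun c => Bool.rec (motive := fun _ => List (Row × Row))
                  (candsR pr L x bs (r :: rest))
                  ((b, c) :: candsR pr L x bs (r :: rest)) (Nat.ble b.sz c.sz))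
                (pickR pr b.pos (r :: rest)))
              (Nat.ble b.sz r.sz))
          (dropBigR pr L (Nat.add x b.sz) p))
        (pr b) := rfl

theorem candsR_absent {pr : Row → Bool} {L x : ℕ} {b : Row} {bs p : List Row}
    (h : pr b = false) : candsR pr L x (b :: bs) p = candsR pr L x bs p := by
  rw [candsR_cons, h]

theorem candsR_nil' {pr : Row → Bool} {L x : ℕ} {b : Row} {bs p : List Row}
    (h : pr b = true) (hd : dropBigR pr L (Nat.add x b.sz) p = []) :
    candsR pr L x (b :: bs) p = [] := by
  rw [candsR_cons, h, hd]

theorem candsR_exit {pr : Row → Bool} {L x : ℕ} {b : Row} {bs p : List Row} {r : Row}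
    {rest : List Row} (h : pr b = true) (hd : dropBigR pr L (Nat.add x b.sz) p = r :: rest)
    (hbr : Nat.ble b.sz r.sz = false) : candsR pr L x (b :: bs) p = [] := by
  rw [candsR_cons, h, hd]
  show Bool.rec (motive := fun _ => List (Row × Row)) [] _ (Nat.ble b.sz r.sz) = []
  rw [hbr]

theorem candsR_none {pr : Row → Bool} {L x : ℕ} {b : Row} {bs p : List Row} {r : Row}
    {rest : List Row} (h : pr b = true) (hd : dropBigR pr L (Nat.add x b.sz) p = r :: rest)
    (hbr : Nat.ble b.sz r.sz = true) (hpk : pickR pr b.pos (r :: rest) = none) :
    candsR pr L x (b :: bs) p = candsR pr L x bs (r :: rest) := by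
  rw [candsR_cons, h, hd]
  show Bool.rec (motive := fun _ => List (Row × Row)) []
    (Option.rec (motive := fun _ => List (Row × Row)) (candsR pr L x bs (r :: rest)) _
      (pickR pr b.pos (r :: rest))) (Nat.ble b.sz r.sz) = _
  rw [hbr, hpk]

theorem candsR_some {pr : Row → Bool} {L x : ℕ} {b : Row} {bs p : List Row} {r c : Row}
    {rest : List Row} (h : pr b = true) (hd : dropBigR pr L (Nat.add x b.sz) p = r :: rest)
    (hbr : Nat.ble b.sz r.sz = true) (hpk : pickR pr b.pos (r :: rest) = some c) :
    candsR pr L x (b :: bs) p =
      Bool.rec (motive := fun _ => List (Row × Row)) (candsR pr L x bs (r :: rest))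
        ((b, c) :: candsR pr L x bs (r :: rest)) (Nat.ble b.sz c.sz) := by
  rw [candsR_cons, h, hd]
  show Bool.rec (motive := fun _ => List (Row × Row)) []
    (Option.rec (motive := fun _ => List (Row × Row)) (candsR pr L x bs (r :: rest)) _
      (pickR pr b.pos (r :: rest))) (Nat.ble b.sz r.sz) = _
  rw [hbr, hpk]

/-- If every row of `bs` is larger than every row of `p`, there are no candidate pairs. -/
theorem cands_nil_of_lt (L x : ℕ) : ∀ (bs p : List Row),
    (∀ b ∈ bs, ∀ c ∈ p, c.sz < b.sz) → cands L x bs p = []
  | [], p, _ => by simp [cands]
  | b :: bs, p, h => by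
    obtain ⟨d, hd1, -, -⟩ := dropBig_spec L (Nat.add x b.sz) p
    have hsub : ∀ q ∈ dropBig L (Nat.add x b.sz) p, q ∈ p := by
      intro q hq
      rw [hd1]
      exact List.mem_append_right _ hq
    cases hdb : dropBig L (Nat.add x b.sz) p with
    | nil => simp only [cands, hdb]
    | cons r rest =>
      rw [hdb] at hsub
      have ih : cands L x bs (r :: rest) = [] :=
        cands_nil_of_lt L x bs (r :: rest) (fun b' hb' c hc =>
          h b' (List.mem_cons_of_mem _ hb') c (hsub c hc))
      cases hpk : pick b.pos (r :: rest) with
      | none =>
        simp only [cands, hdb, hpk]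
        exact ih
      | some c =>
        have hc : c ∈ r :: rest := by
          obtain ⟨d', rest', h1, -, -⟩ := pick_some b.pos (r :: rest) c hpk
          rw [h1]
          exact List.mem_append_right _ List.mem_cons_self
        have hlt : c.sz < b.sz := h b List.mem_cons_self c (hsub c hc)
        have hle : Nat.ble b.sz c.sz = false := by
          cases hb : Nat.ble b.sz c.sz
          · rfl
          · exact absurd (Nat.le_of_ble_eq_true hb) (by omega)
        simp only [cands, hdb, hpk, hle]
        exact ih

theorem candsR_eq (pr : Row → Bool) (L x : ℕ) : ∀ (bs p : List Row),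
    bs.Pairwise (fun a b => a.sz ≤ b.sz) → p.Pairwise (fun a b => b.sz ≤ a.sz) →
    candsR pr L x bs p = cands L x (bs.filter pr) (p.filter pr)
  | [], p, _, _ => by
    show ([] : List (Row × Row)) = _
    simp [cands]
  | b :: bs, p, hbs, hp => by
    have hbs' : bs.Pairwise (fun a b => a.sz ≤ b.sz) := (List.pairwise_cons.mp hbs).2
    have hb_le : ∀ b' ∈ bs, b.sz ≤ b'.sz := (List.pairwise_cons.mp hbs).1
    cases hprb : pr b
    · have hf : (b :: bs).filter pr = bs.filter pr := by simp [hprb]
      rw [hf, candsR_absent hprb]
      exact candsR_eq pr L x bs p hbs' hp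
    · have hf : (b :: bs).filter pr = b :: bs.filter pr := by simp [hprb]
      rw [hf]
      rcases dropBigR_spec pr L (Nat.add x b.sz) p with ⟨h1, h2⟩ | ⟨r, rest, h1, h2, h3, h4⟩
      · rw [candsR_nil' hprb h1]
        simp only [cands, h2]
      · have hsuf : (r :: rest).Pairwise (fun a b => b.sz ≤ a.sz) := hp.sublist h4.sublist
        have hr_ge : ∀ c ∈ rest, c.sz ≤ r.sz := (List.pairwise_cons.mp hsuf).1
        have hfr : (r :: rest).filter pr = r :: rest.filter pr := by simp [h2]
        have ih := candsR_eq pr L x bs (r :: rest) hbs' hsuf
        rw [hfr] at ih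
        have hpk := pickR_eq pr b.pos (r :: rest)
        rw [hfr] at hpk
        have hmem_le : ∀ c ∈ r :: rest.filter pr, c.sz ≤ r.sz := by
          intro c hc
          rcases List.mem_cons.mp hc with rfl | hc'
          · exact le_refl _
          · exact hr_ge c (List.mem_of_mem_filter hc')
        cases hbr : Nat.ble b.sz r.sz
        · have hlt : r.sz < b.sz := by
            by_contra hcon
            have h5 : Nat.ble b.sz r.sz = true := Nat.ble_eq_true_of_le (by omega)
            rw [h5] at hbr
            exact Bool.noConfusion hbr
          have hnil : cands L x (bs.filter pr) (r :: rest.filter pr) = [] := by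
            apply cands_nil_of_lt
            intro b' hb' c hc
            have h6 : b.sz ≤ b'.sz := hb_le b' (List.mem_of_mem_filter hb')
            have h7 : c.sz ≤ r.sz := hmem_le c hc
            omega
          rw [candsR_exit hprb h1 hbr]
          cases hpk2 : pick b.pos (r :: rest.filter pr) with
          | none =>
            simp only [cands, h3, hpk2]
            exact hnil.symm
          | some c =>
            have hc : c ∈ r :: rest.filter pr := by
              obtain ⟨d', rest', e1, -, -⟩ := pick_some b.pos _ c hpk2
              rw [e1]
              exact List.mem_append_right _ List.mem_cons_self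
            have hcle : c.sz ≤ r.sz := hmem_le c hc
            have hle : Nat.ble b.sz c.sz = false := by
              cases hb : Nat.ble b.sz c.sz
              · rfl
              · exact absurd (Nat.le_of_ble_eq_true hb) (by omega)
            simp only [cands, h3, hpk2, hle]
            exact hnil.symm
        · cases hpk2 : pick b.pos (r :: rest.filter pr) with
          | none =>
            rw [hpk2] at hpk
            rw [candsR_none hprb h1 hbr hpk]
            simp only [cands, h3, hpk2]
            exact ih
          | some c =>
            rw [hpk2] at hpk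
            rw [candsR_some hprb h1 hbr hpk]
            cases hle : Nat.ble b.sz c.sz
            · simp only [cands, h3, hpk2, hle]
              exact ih
            · simp only [cands, h3, hpk2, hle]
              rw [← ih]

/-- The total size and the number of the rows present in `m`, added to `a` and `c`. -/
noncomputable def scR (m : ℕ) (rows : List Row) : ℕ → ℕ → ℕ × ℕ :=
  List.rec (motive := fun _ => ℕ → ℕ → ℕ × ℕ) (fun a c => (a, c))
    (fun r _ ih a c => Bool.rec (motive := fun _ => ℕ × ℕ) (ih a c)
      (ih (Nat.add a r.sz) (Nat.succ c)) (tb m r.pos)) rows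

theorem scR_cons (m : ℕ) (r : Row) (rest : List Row) (a c : ℕ) :
    scR m (r :: rest) a c = Bool.rec (motive := fun _ => ℕ × ℕ) (scR m rest a c)
      (scR m rest (Nat.add a r.sz) (Nat.succ c)) (tb m r.pos) := rfl

theorem scR_eq (m : ℕ) : ∀ (rows : List Row) (a c : ℕ),
    scR m rows a c = (a + sumSz (sel rows m), c + (sel rows m).length)
  | [], a, c => by
    show (a, c) = _
    simp [sel, sumSz]
  | r :: rest, a, c => by
    rw [scR_cons]
    cases h : tb m r.pos
    · have hs : sel (r :: rest) m = sel rest m := by simp [sel, h]
      rw [hs]
      exact scR_eq m rest a c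
    · have hs : sel (r :: rest) m = r :: sel rest m := by simp [sel, h]
      rw [hs]
      show scR m rest (Nat.add a r.sz) (Nat.succ c) = _
      rw [scR_eq m rest]
      have e1 : Nat.add a r.sz + sumSz (sel rest m) = a + sumSz (r :: sel rest m) := by
        show a + r.sz + sumSz (sel rest m) = a + (r.sz + sumSz (sel rest m))
        omega
      have e2 : Nat.succ c + (sel rest m).length = c + (r :: sel rest m).length := by
        rw [List.length_cons]
        omega
      rw [e1, e2]

/-- The states after one step from the state `m` when the row `X` is removed first; the same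
list as `kidsX` gives. -/
noncomputable def kidsXR (rows : List Row) (L m : ℕ) (X : Row) : List ℕ :=
  ((domF (candsR (prR m X.pos) L X.sz rows.reverse rows)).filter
      (fun e => keepB L (scR m rows 0 0).1 (scR m rows 0 0).2
        (Nat.add (Nat.add X.sz e.1.sz) e.2.sz))).map
    (fun e => Nat.xor (Nat.xor (Nat.xor m (Nat.pow 2 X.pos)) (Nat.pow 2 e.1.pos))
      (Nat.pow 2 e.2.pos))

theorem kidsXR_eq {rows : List Row} (hsort : rows.Pairwise (fun a b => b.sz ≤ a.sz))
    (L m : ℕ) (X : Row) :
    kidsXR rows L m X
      = kidsX L m (sumSz (sel rows m)) (sel rows m).length (rmv (sel rows m) X.pos) X := by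
  have hG : rmv (sel rows m) X.pos = rows.filter (prR m X.pos) := by
    unfold rmv sel
    rw [List.filter_filter]
    apply List.filter_congr
    intro r _
    rw [prR_eq]
    exact Bool.and_comm _ _
  have hGr : (rmv (sel rows m) X.pos).reverse = rows.reverse.filter (prR m X.pos) := by
    rw [hG, List.filter_reverse]
  have hc : candsR (prR m X.pos) L X.sz rows.reverse rows
      = cands L X.sz (rmv (sel rows m) X.pos).reverse (rmv (sel rows m) X.pos) := by
    rw [hGr, hG]
    exact candsR_eq _ L X.sz rows.reverse rows (List.pairwise_reverse.mpr hsort) hsort
  have hs : scR m rows 0 0 = (sumSz (sel rows m), (sel rows m).length) := by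
    rw [scR_eq, Nat.zero_add, Nat.zero_add]
  unfold kidsXR kidsX
  rw [hc, hs]

/-- The states after one step from the state `m`; the same list as `kidsP` gives. -/
noncomputable def kidsR (rows : List Row) (prio : List ℕ) (L m : ℕ) : List ℕ :=
  Option.rec (motive := fun _ => List ℕ) [m]
    (fun p => Option.rec (motive := fun _ => List ℕ) [m] (fun X => kidsXR rows L m X)
      (rows.find? (fun r => Nat.beq r.pos p)))
    (prio.find? (fun p => tb m p))

theorem find_sel (m p : ℕ) (hp : tb m p = true) : ∀ rows : List Row,
    (sel rows m).find? (fun r => Nat.beq r.pos p) = rows.find? (fun r => Nat.beq r.pos p)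
  | [] => rfl
  | r :: rest => by
    cases hb : Nat.beq r.pos p
    · have e2 : (r :: rest).find? (fun r => Nat.beq r.pos p)
          = rest.find? (fun r => Nat.beq r.pos p) := by
        simp [List.find?, hb]
      rw [e2, ← find_sel m p hp rest]
      cases ht : tb m r.pos
      · have hs : sel (r :: rest) m = sel rest m := by simp [sel, ht]
        rw [hs]
      · have hs : sel (r :: rest) m = r :: sel rest m := by simp [sel, ht]
        rw [hs]
        simp [List.find?, hb]
    · have hpos : r.pos = p := Nat.eq_of_beq_eq_true hb
      have ht : tb m r.pos = true := by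
        rw [hpos]
        exact hp
      have hs : sel (r :: rest) m = r :: sel rest m := by simp [sel, ht]
      rw [hs]
      simp [List.find?, hb]

theorem kidsR_eq {rows : List Row} (hsort : rows.Pairwise (fun a b => b.sz ≤ a.sz))
    (prio : List ℕ) (L m : ℕ) : kidsR rows prio L m = kidsP rows prio L m := by
  unfold kidsR kidsP
  cases hp : prio.find? (fun p => tb m p) with
  | none => rfl
  | some p =>
    have htb : tb m p = true := List.find?_some hp
    have hfs := find_sel m p htb rows
    show Option.rec (motive := fun _ => List ℕ) [m] (fun X => kidsXR rows L m X)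
      (rows.find? (fun r => Nat.beq r.pos p)) =
      (match (sel rows m).find? (fun r => Nat.beq r.pos p) with
        | none => [m]
        | some X =>
          kidsX L m (sumSz (sel rows m)) (sel rows m).length (rmv (sel rows m) X.pos) X)
    rw [hfs]
    cases hf : rows.find? (fun r => Nat.beq r.pos p) with
    | none => rfl
    | some X => exact kidsXR_eq hsort L m X

/-- Check for one piece of a layer with the fast step: every child of a state of the piece occurs
in `next`. -/
noncomputable def stepOKR (rows : List Row) (prio : List ℕ) (L : ℕ) (piece next : List ℕ) :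
    Bool :=
  subWalkN 1000000000000 (sortN (piece.flatMap (kidsR rows prio L))) next

theorem stepOKR_sound {rows : List Row} {prio : List ℕ} {L : ℕ} {piece next : List ℕ}
    (hr : rowsOK rows = true) (h : stepOKR rows prio L piece next = true)
    (hnext : ∀ m ∈ next, ¬ TriPart L (szs (sel rows m))) :
    ∀ m ∈ piece, ¬ TriPart L (szs (sel rows m)) := by
  obtain ⟨-, hsort⟩ := rowsOK_sound hr
  have e : kidsR rows prio L = kidsP rows prio L := funext (fun m => kidsR_eq hsort prio L m)
  have h' : stepOKP rows prio L piece next = true := by
    unfold stepOKP
    rw [← e]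
    exact h
  exact stepOKP_sound hr h' hnext

end Vale.Agent.Lib.P302.helper8
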