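import Mathlib
import Vale.Agent.Lib.P302.helper8.Quick
import Vale.Agent.Lib.P302.helper9.DomP

/-!
# P302: the chunked mask search with domination, with the fast step

`stepOKDR` is the check `stepOKDP` of `Vale.Agent.Lib.P302.helper9.DomP` computed faster: the
step `kidsP` is replaced by the equal `kidsR` of `Vale.Agent.Lib.P302.helper8.Quick`, and the
domination test `domOK2` by the equal `domR`, which finds the rows in which two states differ in
one pass over the rows.
-/

namespace Vale.Agent.Lib.P302.helper8

open Vale.Agent.Lib.P302.helper14 Vale.Agent.Lib.P302.helper9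

/-- One pass over the rows: the sizes of the rows at which `d` has a bit are collected in `A`
(rows present in `a`) or in `B` (the others); at the end the two lists are compared. -/
noncomputable def domGo (d a : ℕ) (rows : List Row) : List ℕ → List ℕ → Bool :=
  List.rec (motive := fun _ => List ℕ → List ℕ → Bool)
    (fun A B => lePt A.reverse B.reverse)
    (fun r _ ih A B =>
      Bool.rec (motive := fun _ => Bool) (ih A B)
        (Bool.rec (motive := fun _ => Bool) (ih A (r.sz :: B)) (ih (r.sz :: A) B) (tb a r.pos))
        (tb d r.pos))
    rows

theorem domGo_cons (d a : ℕ) (r : Row) (rest : List Row) (A B : List ℕ) :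
    domGo d a (r :: rest) A B =
      Bool.rec (motive := fun _ => Bool) (domGo d a rest A B)
        (Bool.rec (motive := fun _ => Bool) (domGo d a rest A (r.sz :: B))
          (domGo d a rest (r.sz :: A) B) (tb a r.pos))
        (tb d r.pos) := rfl

theorem tb_xor_true {a c p : ℕ} (h : tb (Nat.xor a c) p = true) : tb c p = !(tb a p) := by
  simp only [tb_eq] at h ⊢
  have h' : Nat.testBit (a ^^^ c) p = true := h
  rw [Nat.testBit_xor] at h'
  cases ha : Nat.testBit a p <;> cases hc : Nat.testBit c p <;> simp_all

theorem sel_cons_neg {r : Row} {rest : List Row} {m : ℕ} (h : tb m r.pos = false) :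
    sel (r :: rest) m = sel rest m := by
  unfold sel
  exact List.filter_cons_of_neg (by simp [h])

theorem sel_cons_pos {r : Row} {rest : List Row} {m : ℕ} (h : tb m r.pos = true) :
    sel (r :: rest) m = r :: sel rest m := by
  unfold sel
  exact List.filter_cons_of_pos h

theorem domGo_eq (a c : ℕ) : ∀ (rows : List Row) (A B : List ℕ),
    domGo (Nat.xor a c) a rows A B =
      lePt (A.reverse ++ (sel (sel rows (Nat.xor a c)) a).map Row.sz)
        (B.reverse ++ (sel (sel rows (Nat.xor a c)) c).map Row.sz)
  | [], A, B => by
    show lePt A.reverse B.reverse = _
    simp [sel]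
  | r :: rest, A, B => by
    rw [domGo_cons]
    cases hd : tb (Nat.xor a c) r.pos
    · have hs : sel (r :: rest) (Nat.xor a c) = sel rest (Nat.xor a c) := sel_cons_neg hd
      rw [hs]
      exact domGo_eq a c rest A B
    · have hs : sel (r :: rest) (Nat.xor a c) = r :: sel rest (Nat.xor a c) := sel_cons_pos hd
      rw [hs]
      have hc := tb_xor_true hd
      cases ha : tb a r.pos
      · rw [ha] at hc
        have hc' : tb c r.pos = true := by simpa using hc
        have e1 : sel (r :: sel rest (Nat.xor a c)) a = sel (sel rest (Nat.xor a c)) a :=
          sel_cons_neg ha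
        have e2 : sel (r :: sel rest (Nat.xor a c)) c = r :: sel (sel rest (Nat.xor a c)) c :=
          sel_cons_pos hc'
        rw [e1, e2]
        show domGo (Nat.xor a c) a rest A (r.sz :: B) = _
        rw [domGo_eq a c rest A (r.sz :: B), List.reverse_cons, List.append_assoc, List.map_cons]
        rfl
      · rw [ha] at hc
        have hc' : tb c r.pos = false := by simpa using hc
        have e1 : sel (r :: sel rest (Nat.xor a c)) a = r :: sel (sel rest (Nat.xor a c)) a :=
          sel_cons_pos ha
        have e2 : sel (r :: sel rest (Nat.xor a c)) c = sel (sel rest (Nat.xor a c)) c :=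
          sel_cons_neg hc'
        rw [e1, e2]
        show domGo (Nat.xor a c) a rest (r.sz :: A) B = _
        rw [domGo_eq a c rest (r.sz :: A) B, List.reverse_cons, List.append_assoc, List.map_cons]
        rfl

/-- The domination test `domOK2`, in one pass over the rows. -/
noncomputable def domR (rows : List Row) (a c : ℕ) : Bool :=
  domGo (Nat.xor a c) a rows [] []

theorem domR_eq (rows : List Row) (a c : ℕ) : domR rows a c = domOK2 rows a c := by
  unfold domR domOK2 domOK
  rw [domGo_eq]
  rfl

/-- The walk `walkP` with the domination test `domR`. -/
noncomputable def walkR (rows : List Row) (next : List (List ℕ)) : List ℕ → List ℕ → Bool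
  | [], _ => true
  | _ :: _, [] => false
  | c :: cs, h :: hs =>
    match nth2? next (Nat.div h 64) (Nat.mod h 64) with
    | none => false
    | some a =>
      match Nat.beq a c with
      | true => walkR rows next cs hs
      | false =>
        match domR rows a c with
        | true => walkR rows next cs hs
        | false => false

theorem walkR_eq (rows : List Row) (next : List (List ℕ)) : ∀ (cs hs : List ℕ),
    walkR rows next cs hs = walkP rows next cs hs
  | [], _ => by simp [walkR, walkP]
  | _ :: _, [] => by simp [walkR, walkP]
  | c :: cs, h :: hs => by
    cases hn : nth2? next (Nat.div h 64) (Nat.mod h 64) with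
    | none => simp only [walkR, walkP, hn]
    | some a =>
      cases hb : Nat.beq a c with
      | true =>
        simp only [walkR, walkP, hn, hb]
        exact walkR_eq rows next cs hs
      | false =>
        have hd := domR_eq rows a c
        cases hd2 : domOK2 rows a c with
        | true =>
          rw [hd2] at hd
          simp only [walkR, walkP, hn, hb, hd, hd2]
          exact walkR_eq rows next cs hs
        | false =>
          rw [hd2] at hd
          simp only [walkR, walkP, hn, hb, hd, hd2]

/-- Check for one piece of a layer, with the fast step: every child of a state of the piece is,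
or is dominated by, the state of the next layer named by its hint. -/
noncomputable def stepOKDR (rows : List Row) (prio : List ℕ) (L : ℕ) (piece : List ℕ)
    (next : List (List ℕ)) (hints : List ℕ) : Bool :=
  walkR rows next (sortN (piece.flatMap (kidsR rows prio L))) hints

theorem stepOKDR_sound {rows : List Row} {prio : List ℕ} {L : ℕ} {piece : List ℕ}
    {next : List (List ℕ)} {hints : List ℕ}
    (hr : rowsOK rows = true) (h : stepOKDR rows prio L piece next hints = true)
    (hnext : ∀ p ∈ next, ∀ m ∈ p, ¬ TriPart L (szs (sel rows m))) :
    ∀ m ∈ piece, ¬ TriPart L (szs (sel rows m)) := by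
  obtain ⟨-, hsort⟩ := rowsOK_sound hr
  have e : kidsR rows prio L = kidsP rows prio L := funext (fun m => kidsR_eq hsort prio L m)
  have h' : stepOKDP rows prio L piece next hints = true := by
    unfold stepOKDP
    rw [← e, ← walkR_eq]
    exact h
  exact stepOKDP_sound hr h' hnext

end Vale.Agent.Lib.P302.helper8
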